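import Vale.Agent.P269HS.Spec

/-!
# P269, row H5: the local formula for the horizontal forms and delbar of a product
-/

set_option autoImplicit false
set_option linter.all false

open scoped Manifold ContDiff Topology Matrix
open Filter
open Vale.Agent.P272.K Vale.Agent.P299.IX Vale.Agent.P299.IX.Fock Vale.Agent.P281Z.Hg
  Vale.Agent.P281Z.Hg.G1H Vale.Agent.P281Z.Hg.G2H Vale.Agent.P275FM
open Vale.Agent.P269HK Vale.Agent.P269HP Vale.Agent.P269HS

noncomputable section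

namespace Vale.Agent.P269HZ.Lc

section

variable {n N : ℕ} {Y : Type} [TopologicalSpace Y] [ChartedSpace (Cm n) Y] (H : HC n Y (Fin N))
  {e : Chart n Y} {y : Y} {κ : Fin N}

theorem nrm_ne {v : Fin N → ℂ} (h : v κ ≠ 0) : ∑ l, v l * star (v l) ≠ 0 := by
  have h1 : ∑ l, v l * star (v l) = ((∑ l, Complex.normSq (v l) : ℝ) : ℂ) := by
    rw [Complex.ofReal_sum]
    exact Finset.sum_congr rfl fun l _ => Complex.mul_conj _
  rw [h1, Complex.ofReal_ne_zero]
  exact (Finset.sum_pos' (fun l _ => Complex.normSq_nonneg _)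
    ⟨κ, Finset.mem_univ _, Complex.normSq_pos.2 h⟩).ne'

theorem x_yy (y : Y) : ∑ k, H.x y k * yy H y k = 1 := by
  obtain ⟨k, hk⟩ := H.ne y
  simp only [yy, ← mul_div_assoc]
  rw [← Finset.sum_div, div_self (nrm_ne hk)]

/-- the covector in the frame with `κ`-th coordinate `1` -/
def et (e : Chart n Y) (κ k : Fin N) (z : Cm n) : ℂ := H.x (e.symm z) κ * yy H (e.symm z) k

theorem et_eq {v : Fin N → ℂ} (h : v κ ≠ 0) (k : Fin N) :
    v κ * (star (v k) / ∑ l, v l * star (v l)) =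
      star (v k / v κ) / ∑ l, v l / v κ * star (v l / v κ) := by
  have h1 : star (v κ) ≠ 0 := star_ne_zero.2 h
  have h2 : ∑ l, v l / v κ * star (v l / v κ) = (∑ l, v l * star (v l)) / (v κ * star (v κ)) := by
    rw [Finset.sum_div]
    exact Finset.sum_congr rfl fun l _ => by rw [star_div₀, div_mul_div_comm]
  have h3 := nrm_ne h
  rw [h2, star_div₀]
  field_simp

theorem sl_an (he : At e y) (hκ : H.x y κ ≠ 0) (k : Fin N) : AnalyticAt ℂ (sl H e κ k) (e y) :=
  H.hol y κ hκ k e he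

theorem sl_sm (he : At e y) (hκ : H.x y κ ≠ 0) (k : Fin N) :
    ContDiffAt ℝ ∞ (sl H e κ k) (e y) := smt_of_hol (H.hol y κ hκ k) e he

theorem star_sm {f : Cm n → ℂ} {z : Cm n} (h : ContDiffAt ℝ ∞ f z) :
    ContDiffAt ℝ ∞ (fun w => star (f w)) z := Complex.conjCLE.contDiff.contDiffAt.comp z h

theorem et_sm (he : At e y) (hκ : H.x y κ ≠ 0) (k : Fin N) :
    ContDiffAt ℝ ∞ (et H e κ k) (e y) := by
  have h0 : ∑ l, sl H e κ l (e y) * star (sl H e κ l (e y)) ≠ 0 :=
    nrm_ne (κ := κ) (v := fun l => sl H e κ l (e y)) (by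
      show H.x (e.symm (e y)) κ / H.x (e.symm (e y)) κ ≠ 0
      rw [e.left_inv he.2, div_self hκ]
      exact one_ne_zero)
  have h1 : ContDiffAt ℝ ∞ (fun z => star (sl H e κ k z) *
      (∑ l, sl H e κ l z * star (sl H e κ l z))⁻¹) (e y) :=
    (star_sm (sl_sm H he hκ k)).mul ((ContDiffAt.sum fun l _ =>
      (sl_sm H he hκ l).mul (star_sm (sl_sm H he hκ l))).inv h0)
  refine h1.congr_of_eventuallyEq ?_
  filter_upwards [ev_symm he (H.near hκ)] with z hz
  exact (et_eq hz k).trans (div_eq_mul_inv _ _)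

theorem dz_sm {f : Cm n → ℂ} {z : Cm n} (j : Fin n) (h : ContDiffAt ℝ ∞ f z) :
    ContDiffAt ℝ ∞ (dz j f) z := Ka.dr_hl j ▸ Ka.dr_smooth h

theorem lm_sm (he : At e y) (hκ : H.x y κ ≠ 0) (j : Fin n) :
    ContDiffAt ℝ ∞ (lm H e κ j) (e y) :=
  ContDiffAt.sum (f := fun k z => et H e κ k z * dz j (sl H e κ k) z) fun k _ =>
    (et_sm H he hκ k).mul (dz_sm j (sl_sm H he hκ k))

theorem sl_et {z : Cm n} (hz : H.x (e.symm z) κ ≠ 0) (i k : Fin N) :
    H.x (e.symm z) i * yy H (e.symm z) k = sl H e κ i z * et H e κ k z := by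
  rw [sl, et, ← mul_assoc, div_mul_cancel₀ _ hz]

theorem th_eq (he : At e y) (hκ : H.x y κ ≠ 0) (i : Fin N) (j : Fin n) :
    Θ H e y i j = H.x y κ * (dz j (sl H e κ i) (e y) - sl H e κ i (e y) * lm H e κ j (e y)) := by
  have ds := fun k => (sl_sm H he hκ k).differentiableAt (by simp)
  have de := fun k => (et_sm H he hκ k).differentiableAt (by simp)
  have nr := ev_symm he (H.near hκ)
  have h1 : ∀ i k, dz j (fun z => H.x (e.symm z) i * yy H (e.symm z) k) (e y) =
      dz j (sl H e κ i) (e y) * et H e κ k (e y) + sl H e κ i (e y) * dz j (et H e κ k) (e y) :=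
    fun i k => by
      rw [← Ka.dr_hl, ← Ka.dr_mul (ds i) (de k)]
      exact Ka.dr_congr (nr.mono fun z hz => sl_et H hz i k)
  have h2 : ∑ k, (dz j (sl H e κ k) (e y) * et H e κ k (e y) +
      sl H e κ k (e y) * dz j (et H e κ k) (e y)) = 0 := by
    rw [← Ka.dr_hl]
    refine (Finset.sum_congr rfl fun k _ => (Ka.dr_mul (ds k) (de k)).symm).trans ?_
    rw [← Ka.dr_sum _ fun k _ => (ds k).fun_mul (de k), ← Ka.dr_const (c := hl j) (z := e y) 1]
    refine Ka.dr_congr (nr.mono fun z hz => ?_)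
    exact (Finset.sum_congr rfl fun k _ => (sl_et H hz k k).symm).trans (x_yy H _)
  have h3 : ∀ k, H.x y k = H.x y κ * sl H e κ k (e y) := fun k => by
    rw [sl, e.left_inv he.2, mul_div_cancel₀ _ hκ]
  have h4 : ∑ k, sl H e κ k (e y) * et H e κ k (e y) = 1 :=
    (Finset.sum_congr rfl fun k _ => (sl_et H nr.self_of_nhds k k).symm).trans (x_yy H _)
  have h5 : lm H e κ j (e y) = ∑ k, dz j (sl H e κ k) (e y) * et H e κ k (e y) :=
    Finset.sum_congr rfl fun k _ => mul_comm _ _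
  rw [Finset.sum_add_distrib, ← h5] at h2
  have h6 : Θ H e y i j = H.x y κ * (dz j (sl H e κ i) (e y) *
      ∑ k, sl H e κ k (e y) * et H e κ k (e y) +
      sl H e κ i (e y) * ∑ k, sl H e κ k (e y) * dz j (et H e κ k) (e y)) := by
    rw [Θ, Finset.mul_sum, Finset.mul_sum, ← Finset.sum_add_distrib, Finset.mul_sum]
    exact Finset.sum_congr rfl fun k _ => by
      rw [h1, h3 k]
      ring
  rw [h6, h4, eq_neg_of_add_eq_zero_right h2]
  ring

theorem dzb_dz {f : Cm n → ℂ} {z : Cm n} (h : AnalyticAt ℂ f z) (m j : Fin n) :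
    dzb m (dz j f) z = 0 := by
  rw [← Ka.dr_ah, ← Ka.dr_hl, Ka.dr_comm _ _ (h.restrictScalars (𝕜 := ℝ)).contDiffAt,
    ← Ka.dr_const (c := hl j) (z := z) 0]
  refine Ka.dr_congr (h.eventually_analyticAt.mono fun w hw => ?_)
  rw [Ka.dr_ah]
  exact Kb.dzb_hol hw.differentiableAt m

end

theorem loc : LOC := fun _ _ _ _ _ _ H _ _ _ he hκ => ⟨lm_sm H he hκ, th_eq H he hκ⟩

theorem dtl : DTL := fun n N Y _ _ _ H e y κ i u u' he hκ h => by
  set c : Fin n → Cm n → ℂ := fun j z =>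
    dz j (sl H e κ i) z + (-1) * (sl H e κ i z * lm H e κ j z) with hc
  have ht : ∀ x, At e x → H.x x κ ≠ 0 → ∀ v : Fo n, (H.x x κ)⁻¹ • (TM H e x i * par) *ᵥ v =
      ∑ j, c j (e x) • (eps (hl j) * par) *ᵥ v := fun x hx hk v => by
    rw [TM, Finset.sum_mul, Matrix.sum_mulVec, Finset.smul_sum]
    refine Finset.sum_congr rfl fun j _ => ?_
    rw [smul_mul_assoc, Matrix.smul_mulVec, smul_smul, th_eq H hx hk, inv_mul_cancel_left₀ hk, hc,
      sub_eq_add_neg, neg_eq_neg_one_mul]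
  have h1 : vl u' e =ᶠ[𝓝 (e y)] fun z => ∑ j, c j z • (eps (hl j) * par) *ᵥ vl u e z :=
    ev_at he ((h.and (H.near hκ)).mono fun x hx hx' => (hx.1 hx').trans (ht x hx' hx.2 _))
  have ds := (sl_sm H he hκ i).differentiableAt (by simp)
  have dd := fun j => (dz_sm j (sl_sm H he hκ i)).differentiableAt (by simp)
  have dl := fun j => (lm_sm H he hκ j).differentiableAt (by simp)
  have dc : ∀ j, DifferentiableAt ℝ (c j) (e y) := fun j =>
    (dd j).fun_add ((ds.fun_mul (dl j)).const_mul _)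
  have h2 : ∀ m j, dr (ah m) (c j) (e y) = -(H.x y i / H.x y κ * dzb m (lm H e κ j) (e y)) :=
    fun m j => by
      rw [hc, Ka.dr_add (dd j) ((ds.fun_mul (dl j)).const_mul _), Ka.dr_cmul _ (ds.fun_mul (dl j)),
        Ka.dr_mul ds (dl j), Ka.dr_ah, dzb_dz (sl_an H he hκ i),
        Kb.dzb_hol (sl_an H he hκ i).differentiableAt, sl, e.left_inv he.2]
      ring
  have du := fun j => Ka.df_mul (eps (hl j) * par) (dif u he)
  rw [ht y he hκ, dlb_vl _ he, dlb_vl _ he, GM, neg_mul, Matrix.neg_mulVec, Finset.sum_mul,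
    Matrix.sum_mulVec, smul_neg, Finset.smul_sum, ← Finset.sum_neg_distrib]
  simp only [Matrix.mulVec_sum, Finset.smul_sum]
  rw [Finset.sum_comm, ← Finset.sum_add_distrib]
  refine Finset.sum_congr rfl fun m _ => ?_
  rw [Ka.Dv_congr h1, Ka.Dv_sum _ fun j _ => (dc j).fun_smul (du j), Matrix.mulVec_sum,
    Finset.sum_mul, Matrix.sum_mulVec, Finset.smul_sum, ← Finset.sum_neg_distrib,
    ← Finset.sum_add_distrib]
  refine Finset.sum_congr rfl fun j _ => ?_
  have h3 : eps (hl j) * par * eps (ah m) = eps (ah m) * (eps (hl j) * (par : Fm n)) := by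
    rw [mul_assoc, par_eps, mul_neg, ← mul_assoc, eps_eps (hl j), neg_mul, neg_neg, mul_assoc]
  rw [Ka.Dv_fmul (dc j) (du j), Ka.Dv_mul _ (dif u he), h2, Matrix.mulVec_add, Matrix.mulVec_smul,
    Matrix.mulVec_smul, Matrix.mulVec_mulVec, Matrix.mulVec_mulVec, Matrix.mulVec_mulVec, h3,
    smul_mul_assoc, Matrix.smul_mulVec, smul_smul, neg_smul, mul_assoc (eps (ah m)), add_comm]

end Vale.Agent.P269HZ.Lc
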