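import Vale.Agent.P269HS.Ops
import Vale.Agent.P269HA.Xi
import Vale.Agent.P269CL.Ptw
import Vale.Agent.P269HZ.Loc
import Vale.Agent.P269HT70.Main
import Vale.Agent.P269HC.Ctr

/-!
# P269, row H5: the assembly
-/

open scoped Manifold ContDiff Topology Matrix
open Filter
open Vale.Agent.P272.K Vale.Agent.P299.IX Vale.Agent.P299.IX.Fock Vale.Agent.P281Z.Hg
  Vale.Agent.P275MC Vale.Agent.P275FM
open Vale.Agent.P269H (CI)
open Vale.Agent.P269HK Vale.Agent.P269HP Vale.Agent.P269HS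

noncomputable section

namespace Vale.Agent.P269HZ

section

variable {r c : ℕ} {M : Type} [TopologicalSpace M] [ChartedSpace (Cm r) M]
  [IsManifold 𝓘(ℂ, Cm r) ω M] (X : CI r c M) (ξ : Fin c → M → Fin (r + c + 1) → ℂ)

/-- extension by zero of a family indexed by the equations -/
def ez (f : Fin c → M → Fin (r + c + 1) → ℂ) (j : ℕ) (i : Fin (r + c + 1)) : RR r M :=
  fun p => if h : j < c then f ⟨j, h⟩ p.1.2 i else 0

omit [IsManifold 𝓘(ℂ, Cm r) ω M] in
theorem ez_eq (f : Fin c → M → Fin (r + c + 1) → ℂ) {j : ℕ} (h : j < c) (i) :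
    ez f j i = fun p : Pt r M => f ⟨j, h⟩ p.1.2 i := funext fun _ => dif_pos h

/-- the twisted forms of a complete intersection -/
def dat (h1 : ∀ m i, (hc X).Hs (1 - (X.dg m : ℤ)) fun y => ξ m y i)
    (h2 : ∀ m m' y, ∑ i, ξ m y i * aa X m' y i = if m = m' then 1 else 0) :
    Dat (RR r M) (BB r M) (r + c + 1) c (dN X) where
  A := A0 (hc X)
  D t := DD (hc X) t
  σ := σσ r M
  a := ez (aa X)
  ξ := ez ξ
  x i p := (hc X).x p.1.2 i
  y i p := yy (hc X) p.1.2 i
  DA _ _ hv := ⟨DD_mem hv.1, DD_PP hv.1 hv.2⟩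
  σA _ _ hv := ⟨σσ_mem hv.1, σσ_PP hv.2⟩
  DD _ _ hv := DD_DD hv.1
  Dσ _ _ hv := DD_σσ hv.1
  σR := σσ_smul
  ha j hj i s t e v hv := by
    have e' : t + X.dg ⟨j, hj⟩ = s + 1 := dN_val X ⟨j, hj⟩ ▸ e
    have k := mul_A0 (a := s) (b := t) ((P269HA.xi r c M X).1 ⟨j, hj⟩ i).hs (by omega) hv
    rwa [← ez_eq (aa X) hj] at k
  Da j hj i s t e v hv := by
    have e' : t + X.dg ⟨j, hj⟩ = s + 1 := dN_val X ⟨j, hj⟩ ▸ e
    have k := DD_mul (a := s) (b := t) ((P269HA.xi r c M X).1 ⟨j, hj⟩ i) (by omega) hv.1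
    rwa [← ez_eq (aa X) hj] at k
  hξ j hj i s t e v hv := by
    have e' : t + 1 = s + X.dg ⟨j, hj⟩ := dN_val X ⟨j, hj⟩ ▸ e
    have k := mul_A0 (a := s) (b := t) (h1 ⟨j, hj⟩ i) (by omega) hv
    rwa [← ez_eq ξ hj] at k
  hx i s t e v hv := by
    have k := mul_A0 (a := s) (b := t) (HC.hh_x (H := hc X) i).hs (by omega) hv
    exact k
  Dx i s t e v hv := by
    have k := DD_mul (a := s) (b := t) (HC.hh_x (H := hc X) i) (by omega) hv.1
    exact k
  hy i s t e v hv := by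
    have k := mul_A0 (a := s) (b := t) ((P269HA.xi r c M X).2.2.1 i) (by omega) hv
    exact k
  ξa j hj k hk := funext fun p => by
    simp only [Finset.sum_apply, Pi.mul_apply, ez_eq _ hj, ez_eq _ hk, h2, Fin.mk.injEq]
    split_ifs <;> rfl
  xy := funext fun p => by
    simp only [Finset.sum_apply, Pi.mul_apply]
    exact (P269HA.xi r c M X).2.2.2.1 _
  xa j hj := funext fun p => by
    simp only [Finset.sum_apply, Pi.mul_apply, ez_eq _ hj]
    exact (P269HA.xi r c M X).2.1 _ _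

variable {ξ}

theorem ex_ext (h1 : ∀ m i, (hc X).Hs (1 - (X.dg m : ℤ)) fun y => ξ m y i)
    (h2 : ∀ m m' y, ∑ i, ξ m y i * aa X m' y i = if m = m' then 1 else 0)
    (h3 : ∀ m y, ∑ i, yy (hc X) y i * ξ m y i = 0) :
    ∃ E : (dat X ξ h1 h2).Ext, E.A = AA (hc X) ∧ E.P = PP r M := by
  have hp := P269CL.ptw Lc.loc r c M X
  have k : ∀ (p : Pt r M) i, ∃ t : Fin r → ℂ, ∀ l,
      ∑ j, t j * Θ (hc X) p.1.1 p.1.2 l j = (dat X ξ h1 h2).Pi i l p := fun p i => by
    have e : ∀ l, (dat X ξ h1 h2).Pi i l p = (Pi.single i 1 : _ → ℂ) l -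
        yy (hc X) p.1.2 i * (hc X).x p.1.2 l - ∑ j, aa X j p.1.2 i * ξ j p.1.2 l := fun l => by
      rw [Dat.Pi, Pi.sub_apply, Pi.sub_apply, Finset.sum_apply, Finset.sum_range]
      congr 1
      · congr 1
        by_cases h : l = i
        · subst h; rw [Pi.single_eq_same, Pi.single_eq_same]; rfl
        · rw [Pi.single_eq_of_ne h, Pi.single_eq_of_ne h]; rfl
      · refine Finset.sum_congr rfl fun j _ => ?_
        show ez (aa X) j i p * ez ξ j l p = _
        rw [ez_eq _ j.2, ez_eq _ j.2]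
    have s : ∀ b : Fin (r + c + 1) → ℂ, ∑ l, b l * (dat X ξ h1 h2).Pi i l p = b i -
        yy (hc X) p.1.2 i * ∑ l, (hc X).x p.1.2 l * b l -
          ∑ j, aa X j p.1.2 i * ∑ l, ξ j p.1.2 l * b l := fun b => by
      simp only [e, mul_sub, Finset.sum_sub_distrib, Pi.single_apply, mul_ite, mul_one, mul_zero,
        Finset.sum_ite_eq', Finset.mem_univ, if_true, Finset.mul_sum]
      rw [Finset.sum_comm (s := (Finset.univ : Finset (Fin c)))]
      simp only [mul_comm, mul_left_comm, mul_assoc]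
    refine (hp _ _ p.2).2.2.2 _ ?_ fun m => ?_
    · rw [s, (P269HA.xi r c M X).2.2.2.1]
      simp only [mul_comm (ξ _ _ _), h3, mul_zero, Finset.sum_const_zero, mul_one, sub_self]
    · rw [s, (P269HA.xi r c M X).2.1]
      simp only [h2, mul_ite, mul_one, mul_zero, Finset.sum_ite_eq', Finset.mem_univ, if_true,
        sub_zero, sub_self]
  choose ζ hζ using k
  exact ⟨{
    A := AA (hc X)
    P := PP r M
    T := TT (hc X)
    I := fun i => opm fun p => par * ctr (ζ p i)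
    g := gg (hc X)
    hA := fun _ _ => Iff.rfl
    TT := TT_TT
    TA := fun i _ _ => TT_AA P269HT70.tcv i
    TP := fun i _ _ => TT_PP i
    DT := fun i _ _ => DD_TT P269HT70.tcv Lc.dtl i
    gT := gg_TT
    σT := σσ_TT
    yT := sum_TT fun p => (hp _ _ p.2).1
    aT := fun j hj => sum_TT fun p l => by
      show ∑ i, ez (aa X) j i p * _ = 0
      simp only [ez_eq _ hj]
      exact (hp _ _ p.2).2.1 _ l
    IT := fun i l v => by
      rw [ctr_TT]
      congr 2
      exact funext fun p => hζ p i l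
    I0 := fun i v hv => funext fun p => by
      rw [opm_apply, ← Matrix.mulVec_mulVec, ctr_zero _ (mem_PP.1 hv p), Matrix.mulVec_zero]
      rfl
    span := fun _ _ _ => span_TT (P269HC.ctr_row P269HT70.tcv) fun e y he => (hp e y he).2.2.1 },
    rfl, rfl⟩

end

theorem bun : BUN := by
  intro r c M _ _ _ _ _ _ X w ι _ φ p q hw hB hφ hF
  obtain ⟨ξ, h1, h2, h3⟩ := (P269HA.xi r c M X).2.2.2.2
  obtain ⟨E, eA, eP⟩ := ex_ext X h1 h2 h3
  have b := fun k t => Dat.base (G := dat X ξ h1 h2) (p := k) (n := t) (ρ := ρρ (hc X) (t + k))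
    ρρ_inj (fun _ => ρρ_range) DD_ρρ σσ_ρρ (hF (t + k))
  have o : ∀ k, (dat X ξ h1 h2).o k = ∑ a with p a = k, (-1 : ℂ) ^ q a := fun k => by
    obtain ⟨i, i1, i2, i3, i4⟩ := E.model k
    rw [eA, eP] at i2
    have hv : ∀ t, val r M (lv r M (i t)) = i t := fun t => by
      obtain ⟨u, hu⟩ := mem_AA0.1 ((i2 _).2 ⟨t, rfl⟩).1
      rw [← hu, lv_val]
    have hs := Ch.of_anti (Dat.okZ (G := dat X ξ h1 h2) (p := k)).anti
    have h := (hB.chi hw hφ k hs (i := lv r M ∘ₗ i)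
      (fun a b e => i1 (by rw [← hv a, ← hv b]; exact congrArg _ e))
      (fun t => val_inj (by
        show val r M (dlb r M (lv r M (i t))) = val r M (lv r M (i _))
        rw [← DD_zero (H := hc X), hv, hv]
        exact i3 t))
      (fun u => ⟨fun hu => ((i2 (val r M u)).1 ⟨mem_AA0.2 ⟨u, rfl⟩, val_PP.2 hu⟩).imp
        fun t ht => by
          show lv r M (i t) = u
          rw [ht, lv_val], fun ⟨t, ht⟩ => val_PP.1 (by
        rw [← ht]
        exact (hv t).symm ▸ ((i2 _).2 ⟨t, rfl⟩).2)⟩)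
      (s := (-1) ^ k) fun t => val_inj (by
        show val r M (lv r M (i _)) = val r M ((-1 : ℂ) ^ k • pr r M (lv r M (i t)))
        rw [map_smul, val_pr, hv, hv]
        exact i4 t)).2
    rw [← mul_pow, neg_mul_neg, one_mul, one_pow, one_mul] at h
    exact (chi_eq hs).trans h
  refine ⟨(dat X ξ h1 h2).e, fun k t => ?_, fun j t => Dat.e1 j t, fun j k t => ?_,
    ⟨_, fun k hk => Dat.ez hk⟩, Dat.o0.trans (o 0), fun k => ?_⟩
  · rw [Dat.e, Dat.F_zero]
    exact (b k t).2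
  · rw [← dN_val]
    exact Dat.e2 (fun k t => (b k t).1) j.2 k t
  · rw [Dat.o1 fun k t => (b k t).1, o, o]

end Vale.Agent.P269HZ
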